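import Vale.Agent.P130.Lebesgue.Main

/-!
P130: an automorphism of a standard nonatomic probability space with simple Lebesgue spectrum.
-/

namespace Vale.Agent.Results.P130.SimpleLebesgue

open MeasureTheory
open scoped ComplexConjugate

theorem result :
    ∃ (X : Type) (_ : MeasurableSpace X) (_ : StandardBorelSpace X) (μ : Measure X),
      IsProbabilityMeasure μ ∧ (∀ x, μ {x} = 0) ∧ ∃ T : X ≃ᵐ X, MeasurePreserving T μ μ ∧
      ∃ g : X → ℂ, MemLp g 2 μ ∧ ∫ x, g x ∂μ = 0 ∧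
        (∀ a b : ℤ, ∫ x, conj (g ((T.toEquiv ^ a : Equiv.Perm X) x)) *
          g ((T.toEquiv ^ b : Equiv.Perm X) x) ∂μ = if a = b then 1 else 0) ∧
        ∀ f : X → ℂ, MemLp f 2 μ → ∫ x, f x ∂μ = 0 →
          (∀ n : ℤ, ∫ x, conj (g ((T.toEquiv ^ n : Equiv.Perm X) x)) * f x ∂μ = 0) →
          f =ᵐ[μ] 0 :=
  Vale.Agent.P130.Lebesgue.simpleLebesgueGoal

end Vale.Agent.Results.P130.SimpleLebesgue
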